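import Vale.Agent.P347.Local.Main

open MeasureTheory

/-- Targets whose interaction graph has a given colouring with at most eight colours are sampled
within total variation `1/10` by `O((log d) ^ 3)` adaptive first-order queries. -/
theorem Vale.Agent.Results.P347.ColouredInteractions.result :
    ∃ C : ℝ, ∀ d : ℕ, 2 ≤ d → ∀ col : Fin d → Fin 8,
      ∃ q : ℕ, (q : ℝ) ≤ C * Real.log d ^ 3 ∧
        ∃ (Ω : Type) (_ : MeasurableSpace Ω) (P : Measure Ω) (M : Type) (_ : MeasurableSpace M)
          (init : M) (query : Ω → M → EuclideanSpace ℝ (Fin d))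
          (update : Ω → M → ℝ × EuclideanSpace ℝ (Fin d) → M) (out : M → EuclideanSpace ℝ (Fin d)),
          StandardBorelSpace Ω ∧ IsProbabilityMeasure P ∧ Measurable (Function.uncurry query) ∧
          Measurable (fun z : (Ω × (ℝ × EuclideanSpace ℝ (Fin d))) × M => update z.1.1 z.2 z.1.2) ∧
          Measurable out ∧
          ∀ V : EuclideanSpace ℝ (Fin d) → ℝ, ContDiff ℝ 2 V → V 0 = 0 → gradient V 0 = 0 →
            (∀ x h, ‖h‖ ^ 2 ≤ iteratedFDeriv ℝ 2 V x ![h, h] ∧
              iteratedFDeriv ℝ 2 V x ![h, h] ≤ 2 * ‖h‖ ^ 2) →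
            (∀ x i k, i ≠ k → col i = col k → iteratedFDeriv ℝ 2 V x
              ![EuclideanSpace.single i 1, EuclideanSpace.single k 1] = 0) →
            ∀ S : Set (EuclideanSpace ℝ (Fin d)), MeasurableSet S →
              |(P.map fun ω => out ((fun s =>
                  update ω s (V (query ω s), gradient V (query ω s)))^[q] init)).real S
                - (∫ x in S, Real.exp (-V x)) / ∫ x, Real.exp (-V x)| ≤ 1 / 10 :=
  P347.local_targets
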