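import Vale.Agent.P347.Any.DenseMain

open MeasureTheory

/-- Targets whose mixed second partials are constant inside each of `χ` known colours are sampled
within total variation `1/10` by `O(χ ^ (3/2) (log d) ^ 5)` adaptive first-order queries; one colour
allows an unknown dense quadratic plus a separable function. -/
theorem Vale.Agent.Results.P347.DenseBlocks.result :
    ∃ C : ℝ, ∀ d : ℕ, 2 ≤ d → ∀ χ : ℕ, 1 ≤ χ → ∀ col : Fin d → Fin χ,
      ∃ q : ℕ, (q : ℝ) ≤ C * χ * Real.sqrt χ * Real.log d ^ 5 ∧
        ∃ (Ω : Type) (_ : MeasurableSpace Ω) (P : Measure Ω) (M : Type) (_ : MeasurableSpace M)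
          (init : M) (query : Ω → M → EuclideanSpace ℝ (Fin d))
          (update : Ω → M → ℝ × EuclideanSpace ℝ (Fin d) → M) (out : M → EuclideanSpace ℝ (Fin d)),
          StandardBorelSpace Ω ∧ IsProbabilityMeasure P ∧ Measurable (Function.uncurry query) ∧
          Measurable (fun z : (Ω × (ℝ × EuclideanSpace ℝ (Fin d))) × M => update z.1.1 z.2 z.1.2) ∧
          Measurable out ∧
          ∀ V : EuclideanSpace ℝ (Fin d) → ℝ, ContDiff ℝ 2 V → V 0 = 0 → gradient V 0 = 0 →
            (∀ x h, ‖h‖ ^ 2 ≤ iteratedFDeriv ℝ 2 V x ![h, h] ∧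
              iteratedFDeriv ℝ 2 V x ![h, h] ≤ 2 * ‖h‖ ^ 2) →
            (∀ x i k, i ≠ k → col i = col k → iteratedFDeriv ℝ 2 V x
                ![EuclideanSpace.single i 1, EuclideanSpace.single k 1]
              = iteratedFDeriv ℝ 2 V 0
                ![EuclideanSpace.single i 1, EuclideanSpace.single k 1]) →
            ∀ S : Set (EuclideanSpace ℝ (Fin d)), MeasurableSet S →
              |(P.map fun ω => out ((fun s =>
                  update ω s (V (query ω s), gradient V (query ω s)))^[q] init)).real S
                - (∫ x in S, Real.exp (-V x)) / ∫ x, Real.exp (-V x)| ≤ 1 / 10 :=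
  P347.dense_targets
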