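import Vale.Agent.P347.Zero.Top
import Vale.Agent.P347.Zero.Induction
import Vale.Agent.P347.Zero.Start
import Vale.Agent.P347.Zero.Move
import Vale.Agent.P347.Zero.Analysis
import Vale.Agent.P347.Zero.Down
import Vale.Agent.P347.Zero.Pass

open MeasureTheory

/-- The whole class of well-conditioned log-concave targets is sampled within total variation `1/10`
by `O(d ^ a)` first-order queries for every positive `a`, so the dimension exponent is zero. -/
theorem Vale.Agent.Results.P347.DimensionZero.result :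
    ∀ a : ℝ, 0 < a → ∃ C : ℝ, ∀ d : ℕ, 2 ≤ d →
      ∃ q : ℕ, (q : ℝ) ≤ C * (d : ℝ) ^ a ∧
        ∃ (Ω : Type) (_ : MeasurableSpace Ω) (P : Measure Ω) (M : Type) (_ : MeasurableSpace M)
          (init : M) (query : Ω → M → EuclideanSpace ℝ (Fin d))
          (update : Ω → M → ℝ × EuclideanSpace ℝ (Fin d) → M) (out : M → EuclideanSpace ℝ (Fin d)),
          StandardBorelSpace Ω ∧ IsProbabilityMeasure P ∧ Measurable (Function.uncurry query) ∧
          Measurable (fun z : (Ω × (ℝ × EuclideanSpace ℝ (Fin d))) × M => update z.1.1 z.2 z.1.2) ∧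
          Measurable out ∧
          ∀ V : EuclideanSpace ℝ (Fin d) → ℝ, ContDiff ℝ 2 V → V 0 = 0 → gradient V 0 = 0 →
            (∀ x h, ‖h‖ ^ 2 ≤ iteratedFDeriv ℝ 2 V x ![h, h] ∧
              iteratedFDeriv ℝ 2 V x ![h, h] ≤ 2 * ‖h‖ ^ 2) →
            ∀ S : Set (EuclideanSpace ℝ (Fin d)), MeasurableSet S →
              |(P.map fun ω => out ((fun s =>
                  update ω s (V (query ω s), gradient V (query ω s)))^[q] init)).real S
                - (∫ x in S, Real.exp (-V x)) / ∫ x, Real.exp (-V x)| ≤ 1 / 10 :=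
  P347.Zero.top (P347.Zero.descent_of_programs
    ⟨P347.Zero.start P347.Zero.score_spec, P347.Zero.down P347.Zero.analysis.time,
      P347.Zero.pass, P347.Zero.move⟩)
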