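import Vale.Agent.P347.Main

open MeasureTheory

/-- Targets that split over given coordinate blocks of size at most `b` are sampled within total
variation `1/10` by `O((b + 1) 2 ^ b (log d) ^ 2)` non-adaptive first-order queries. -/
theorem Vale.Agent.Results.P347.SeparableTargets.result :
    ∃ C : ℝ, ∀ b d : ℕ, 2 ≤ d → ∀ blk : Fin d → Fin d,
      (∀ i, (Finset.univ.filter fun k => blk k = i).card ≤ b) →
      ∃ q : ℕ, (q : ℝ) ≤ C * (b + 1) * 2 ^ b * Real.log d ^ 2 ∧
        ∃ (Ω : Type) (_ : MeasurableSpace Ω) (P : Measure Ω)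
          (query : Ω → Fin q → EuclideanSpace ℝ (Fin d))
          (out : Ω → (Fin q → ℝ × EuclideanSpace ℝ (Fin d)) → EuclideanSpace ℝ (Fin d)),
          StandardBorelSpace Ω ∧ IsProbabilityMeasure P ∧ Measurable query ∧
          Measurable (Function.uncurry out) ∧
          ∀ V : EuclideanSpace ℝ (Fin d) → ℝ, ContDiff ℝ 2 V → V 0 = 0 → gradient V 0 = 0 →
            (∀ x h, ‖h‖ ^ 2 ≤ iteratedFDeriv ℝ 2 V x ![h, h] ∧
              iteratedFDeriv ℝ 2 V x ![h, h] ≤ 2 * ‖h‖ ^ 2) →
            (∀ x, V x = ∑ i, V (WithLp.toLp 2 fun k => if blk k = i then x k else 0)) →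
            ∀ S : Set (EuclideanSpace ℝ (Fin d)), MeasurableSet S →
              |(P.map fun ω => out ω fun j => (V (query ω j), gradient V (query ω j))).real S
                - (∫ x in S, Real.exp (-V x)) / ∫ x, Real.exp (-V x)| ≤ 1 / 10 :=
  P347.separable_targets
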